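import Vale.Agent.P181.FL.Defs

set_option autoImplicit false

/-!
# P181, FL, row TR: from even letters to odd letters

`WordStmt` from `CapStmt` and `DomStmt`.
-/

open scoped BigOperators

namespace Vale.Agent.P181.FL.H761

open Finset Equiv

variable {N q m n : ℕ} {lam : Fin n → ℕ}

/-- the sign as a complex number -/
noncomputable def sg {X : Type} [Fintype X] [DecidableEq X] (g : Perm X) : ℂ :=
  ((Perm.sign g : ℤ) : ℂ)

theorem sg_mul {X : Type} [Fintype X] [DecidableEq X] (g h : Perm X) :
    sg (g * h) = sg g * sg h := by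
  simp [sg, Perm.sign_mul]

theorem sg_sq {X : Type} [Fintype X] [DecidableEq X] (g : Perm X) : sg g * sg g = 1 := by
  unfold sg
  rcases Int.units_eq_one_or (Perm.sign g) with h | h <;> rw [h] <;> simp

theorem sg_ne {X : Type} [Fintype X] [DecidableEq X] (g : Perm X) : sg g ≠ 0 := by
  intro h
  have := sg_sq g
  rw [h] at this
  simp at this

/-- the transform -/
noncomputable def kap {P : Type} [Fintype P] [DecidableEq P] (M : ℕ)
    (f : (P → Fin n) → ℂ) (l0 : P ≃ Cell lam) (c : P → Fin M) : ℂ :=
  ∑ l : P ≃ Cell lam, (if ∀ p, ((l p).2 : ℕ) = (c p : ℕ) then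
    sg (l.trans l0.symm) * f (fun p => (l p).1) else 0)

/-- change of the positions -/
theorem kap_comp {P : Type} [Fintype P] [DecidableEq P] (M : ℕ)
    (f : (P → Fin n) → ℂ) (l0 : P ≃ Cell lam) (g : Perm P) (c : P → Fin M) :
    kap M f l0 (fun p => c (g p)) =
      sg g * kap M (fun w => f (fun p => w (g p))) l0 c := by
  unfold kap
  rw [Finset.mul_sum]
  refine Fintype.sum_equiv (Equiv.equivCongr g (Equiv.refl _)) _ _ (fun l => ?_)
  have h1 : (∀ p, ((l p).2 : ℕ) = (c (g p) : ℕ)) ↔
      (∀ p, (((Equiv.equivCongr g (Equiv.refl (Cell lam)) l) p).2 : ℕ) = (c p : ℕ)) := by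
    constructor
    · intro h p
      have := h (g.symm p)
      simpa using this
    · intro h p
      have h7 := h (g p)
      have e7 : (Equiv.equivCongr g (Equiv.refl (Cell lam)) l) (g p) = l p := by simp
      rw [e7] at h7
      exact h7
  by_cases hc : ∀ p, ((l p).2 : ℕ) = (c (g p) : ℕ)
  · rw [if_pos hc, if_pos (h1.1 hc)]
    have h2 : l.trans l0.symm =
        ((Equiv.equivCongr g (Equiv.refl (Cell lam)) l).trans l0.symm : Perm P) * g := by
      ext p
      simp
    rw [h2, sg_mul]
    have h3 : (fun p => (l p).1) = fun p =>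
        ((Equiv.equivCongr g (Equiv.refl (Cell lam)) l) (g p)).1 := by
      funext p
      simp
    rw [h3]
    ring
  · rw [if_neg hc, if_neg (fun h => hc (h1.2 h))]
    simp

/-- the sign of a permutation of the slots or of the blocks -/
theorem sg_block {A : Type} [Fintype A] [DecidableEq A] (hm : Even m) (e : Perm A) :
    sg (Equiv.prodCongr e (Equiv.refl (Fin m)) : Perm (A × Fin m)) = 1 := by
  have h : (Equiv.prodCongr e (Equiv.refl (Fin m)) : Perm (A × Fin m)) =
      Equiv.prodCongrLeft (fun _ : Fin m => e) := by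
    ext p <;> rfl
  unfold sg
  rw [h, Perm.sign_prodCongrLeft]
  obtain ⟨k, hk⟩ := hm
  simp only [Finset.prod_const, Finset.card_univ, Fintype.card_fin]
  rcases Int.units_eq_one_or (Perm.sign e) with h1 | h1 <;> rw [h1]
  · simp
  · rw [hk]
    simp

theorem word (hC : CapStmt) (hD : DomStmt) : WordStmt := by
  intro N q m n lam f hm hq hant hlam hf hslot hperm hblock
  by_contra hne
  push Not at hne
  obtain ⟨w0, hw0⟩ := hne
  -- a bijection of the positions and the cells
  have hcard : Fintype.card (Pos N q m) = Fintype.card (Cell lam) := by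
    rw [Fintype.card_sigma]
    simp only [Fintype.card_fin]
    have h := hf.wt w0 hw0
    rw [← Finset.sum_congr rfl (fun i _ => h i)]
    rw [← Finset.card_univ]
    exact Finset.card_eq_sum_card_fiberwise (fun x _ => Finset.mem_univ (w0 x))
  let l0 : Pos N q m ≃ Cell lam := Fintype.equivOfCardEq hcard
  have hk : ∀ c : Pos N q m → Fin ((q + 1) * m), kap ((q + 1) * m) f l0 c = 0 := by
    refine hD N q m (kap ((q + 1) * m) f l0) hm hq ?_ ?_ ?_
    · intro g hg c
      rw [kap_comp]
      have : (fun w : Pos N q m → Fin n => f (fun p => w (g p))) = f := by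
        funext w
        exact hslot g hg w
      rw [this]
      rfl
    · intro e c
      have h := kap_comp ((q + 1) * m) f l0
        (Equiv.prodCongr (Equiv.prodCongr e (Equiv.refl (Fin q))) (Equiv.refl (Fin m))) c
      rw [sg_block hm, one_mul] at h
      have h2 : (fun w : Pos N q m → Fin n => f (fun p => w
          ((Equiv.prodCongr (Equiv.prodCongr e (Equiv.refl (Fin q))) (Equiv.refl (Fin m))) p)))
          = f := by
        funext w
        exact hperm e w
      rw [h2] at h
      exact h
    · intro c
      have h : ∀ g : Perm (Fin N × Fin q), kap ((q + 1) * m) f l0 (fun p => c (g p.1, p.2)) =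
          kap ((q + 1) * m) (fun w => f (fun p => w (g p.1, p.2))) l0 c := by
        intro g
        have h := kap_comp ((q + 1) * m) f l0 (Equiv.prodCongr g (Equiv.refl (Fin m))) c
        rw [sg_block hm, one_mul] at h
        exact h
      rw [Finset.sum_congr rfl (fun g _ => h g)]
      unfold kap
      rw [Finset.sum_comm]
      refine Finset.sum_eq_zero (fun l _ => ?_)
      by_cases hc : ∀ p, ((l p).2 : ℕ) = (c p : ℕ)
      · simp only [if_pos hc]
        rw [← Finset.mul_sum, hblock (fun p => (l p).1), mul_zero]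
      · simp only [if_neg hc]
        exact Finset.sum_const_zero
  refine hw0 (hC n lam (Pos N q m) f hant hf ?_ w0)
  intro l
  let c : Pos N q m → Fin ((q + 1) * m) := fun p =>
    ⟨(l p).2, lt_of_lt_of_le (l p).2.isLt (hlam _)⟩
  have h := hk c
  unfold kap at h
  have h2 : ∑ l' : Pos N q m ≃ Cell lam, (if ∀ p, ((l' p).2 : ℕ) = (c p : ℕ) then
      sg (l'.trans l0.symm) * f (fun p => (l' p).1) else 0) =
      sg (l.trans l0.symm) * ∑ g : Perm (Cell lam),
        (if ∀ c, ((g c).2 : ℕ) = (c.2 : ℕ) then
          ((Perm.sign g : ℤ) : ℂ) * f (fun p => (g (l p)).1) else 0) := by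
    rw [Finset.mul_sum]
    refine Fintype.sum_equiv (Equiv.equivCongr l (Equiv.refl (Cell lam))) _ _ (fun l' => ?_)
    have h1 : (∀ p, ((l' p).2 : ℕ) = (c p : ℕ)) ↔
        (∀ x, (((Equiv.equivCongr l (Equiv.refl (Cell lam)) l') x).2 : ℕ) = (x.2 : ℕ)) := by
      constructor
      · intro h x
        have h3 : ((l' (l.symm x)).2 : ℕ) = ((l (l.symm x)).2 : ℕ) := h (l.symm x)
        have e3 : l (l.symm x) = x := l.apply_symm_apply x
        rw [e3] at h3
        exact h3
      · intro h p
        have h3 := h (l p)
        have e3 : (Equiv.equivCongr l (Equiv.refl (Cell lam)) l') (l p) = l' p := by simp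
        rw [e3] at h3
        exact h3
    by_cases hc : ∀ p, ((l' p).2 : ℕ) = (c p : ℕ)
    · rw [if_pos hc, if_pos (h1.1 hc)]
      have h4 : (fun p => (l' p).1) = fun p =>
          ((Equiv.equivCongr l (Equiv.refl (Cell lam)) l') (l p)).1 := by
        funext p
        simp
      have h5 : sg (l'.trans l0.symm) = sg (l.trans l0.symm) *
          sg (Equiv.equivCongr l (Equiv.refl (Cell lam)) l' : Perm (Cell lam)) := by
        have h6 : (l'.trans l0.symm : Perm (Pos N q m)) =
            (l0.trans ((Equiv.equivCongr l (Equiv.refl (Cell lam)) l').trans l0.symm) :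
              Perm (Pos N q m)) * (l.trans l0.symm) := by
          ext p <;> simp
        rw [h6, sg_mul, mul_comm]
        congr 1
        unfold sg
        rw [← Perm.sign_trans_trans_symm (Equiv.equivCongr l (Equiv.refl (Cell lam)) l') l0]
        rfl
      rw [h5, ← h4]
      unfold sg
      ring
    · rw [if_neg hc, if_neg (fun h => hc (h1.2 h))]
      simp
  rw [h2] at h
  exact (mul_eq_zero.1 h).resolve_left (sg_ne _)

end Vale.Agent.P181.FL.H761
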